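import Vale.Agent.P154.D8.K3.Charts

set_option maxRecDepth 100000

namespace Vale.Agent.P154.D8.K3

open Cert InT OutT

/-- Certificate tree. -/
def tr00_r10 : OutT :=
(B (A (B (A (O (c (c (c l l) (c l l)) (c (c (c l l) (d l l)) (d (c k k) (c (d (c l l) (c l l)) (d (c k k) (c l (d l l)))))))) (B (A (O (c (c l (c l l)) (c (c l (d l l)) (d (c k k) (c (c l l) (d l l)))))) (O (c (c l (c l l)) (c (c (c l l) (d l l)) (d (c k k) (c (d l l) (d (d k (c k k)) (c l l)))))))) (A (O (c (c l (c l l)) (c (c l (c l l)) (d (c k k) (c (c l l) (d l l)))))) (O (c (c l (c l l)) (c (c (c l l) (d l l)) (d (c k k) (c (d l l) (d (d k (c k k)) (c l l)))))))))) (A (O (c (c (c (c l l) (c l l)) (c l l)) (c (c (c l l) (d l (c l l))) (c (d k (c l (d l l))) (d k (d (c k k) (c (c l l) (d (c k k) (c l l))))))))) (B (A (O (c (c l (c l l)) (c (c l (c l l)) (d (c k k) (c l (d l l)))))) (O (c (c l (c l l)) (c (c (c l l) (d l l)) (d (c k k) (c (d l l) (d (d k l) (c l l)))))))) (A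 (O (c (c (c l l) (c l l)) (c (c l (c l l)) (d (c k k) (c l (d l l)))))) (O (c (c (c l l) (c l l)) (c (c (c l l) (d l l)) (d (c k k) (c (c l l) (d (d k l) (c l l))))))))))) (B (A s s) (A (B (A (O (c (c l (c l (d (c l l) l))) (c (c (d (c l (d (c l l) l)) (c l l)) (d (d (c k k) (c l (d k l))) (d (c l l) l))) (d (c k k) (c (d (c (c l k) (d k l)) (c l l)) (d (c k k) (c (c l l) (d (c k k) l)))))))) s) (A (O (c (c (c l l) (c l (c l l))) (c (c (d (c l l) (c l l)) (d (c l (c k k)) (c l l))) (d (c k k) (c (d (c l (c k k)) (c l l)) (d (c k k) (c l (d (c k k) l)))))))) (B s (O (c (c l (c (c l l) (c (c l l) (d (c l l) l)))) (c (c (d (c (c (c l l) (c l l)) (d (c l (c l l)) l)) (c l l)) (d (c (d k (c l l)) (d k (d k l))) (d (c l l) (c l l)))) (d (c k k) (c (d (c (c l k) (d k l)) (c l l)) (d (c k k) (c (d l l) (d (d k l) l))))))))))) (B s (A s s))))) (A (B (A (B (O (c (c (c l l) (c l l)) (c (c l (c l l)) (c (d k (c l l)) (d k (d (c k k) (c l l))))))) (O (c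 (c (c (c l l) l) (c l l)) (c (c l l) (c (d k (c l l)) (d k (d (c k k) (c l (c l l))))))))) (B (A (O (c (c (c l l) (c l l)) (c (c l l) (d (c k k) (c l (d l l)))))) (O (c (c (c l l) (c l l)) (c (c l (c l l)) (d (c k k) (c (c l l) (d (c k k) l))))))) (A (O (c (c (c l l) (c l l)) (c (c l l) (c (c l l) (d k (c l l)))))) (O (c (c (c l l) (c l l)) (c (c l l) (c (c l l) (d k (d l l))))))))) (A (B (O (c (c (c (c l l) (c l l)) (c l l)) (c (c l l) (c (d k (c l l)) (d k (d (c k k) (c l (c l l)))))))) (O (c (c (c (c l l) (c l l)) (c l l)) (c (c l l) (c (c l (c l l)) (d k (c (d k l) (d k (d l l))))))))) (B (A (O (c (c (c l l) (c l l)) (c (c l l) (c l (d k l))))) (O (c (c (c l l) (c l l)) (c (c l l) (c l (d k (c l l))))))) (A (O (c (c (c l l) (c l l)) (c (c l l) (c l (d k l))))) (O (c (c (c l l) (c l l)) (c (c l l) (c l (d k (c l l)))))))))) (B (A (B (A (O (c (c (c l l) (c l (c l l))) (c (c (c l l) (d l l)) (d (c k k) (c (d l l) (d (c k k) (c l (c l l))))))))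 (B (O (c (c l (c l (c l l))) (c (c (d (c l l) (c l l)) (d (c l l) (c l l))) (d (c k k) (c (d (c l (c k k)) (c l l)) (d (c k k) (c (c l l) (d (c k k) l)))))))) (O (c (c (c l l) (c l l)) (c (c (c l l) (d l l)) (d (c k k) (c (d l l) (d (c k k) (c l (d l l)))))))))) (A (O (c (c (c l l) (c l l)) (c (c l l) (c (d k (c l l)) (d k (d (d k l) (c l l))))))) (B (O (c (c (c l l) (c l l)) (c (c l (c l l)) (d (c k k) (c (c l l) (d (d k (c k k)) (d (c l l) l))))))) (O (c (c (c l l) (c l l)) (c (c l l) (d (c k k) (c l (d (c k k) (c l l)))))))))) (B (A (B s (A (O (c (c l (c l (c l l))) (c (c (c l l) (d l l)) (d (c k k) (c (c l l) (d (d k l) l)))))) s)) s) (A (B (A (O (c (c l (c l l)) (c (c l (c l l)) (d (c k k) (c l (d l l)))))) (O (c (c l (c l l)) (c (c (c l l) (d l l)) (d (c k k) (c (c l l) (d (d k l) l))))))) (A (O (c (c l (c l l)) (c (c l l) (d (c k k) (c l (c l l)))))) (O (c (c l (c l l)) (c (c l l) (d (d k (c k k)) (c l (d l l)))))))) (B (A s s) (A (O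 (c (c l (c l l)) (c (c l l) (d (c k k) (c l (d l l)))))) (O (c (c l (c l l)) (c (c l (c l l)) (d (c k k) (c (c l l) (d (d k l) (c l l)))))))))))) (A (B (A (O (c (c (c l l) (c l l)) (c (c l l) (c (c l l) (d k (d l (c l l))))))) (O (c (c (c l l) (c l l)) (c (c l l) (c (d k (c l l)) (d k (d (c k k) (c l (d (c k k) (c l l)))))))))) (A (O (c (c (c l l) (c l l)) (c (c l l) (c l (d k (d l l)))))) (O (c (c (c l l) (c l l)) (c (c l l) (c (c l l) (d k (c l (d k (d l l)))))))))) (B (A (B (O (c (c l (c l l)) (c (c l l) (c (d k l) (d k (d (c k k) (c l (d l l)))))))) (O (c (c l l) (c (c l l) (c (c l l) (d k (d (c k k) (c l (c l l))))))))) (B (A (O (c (c l l) (c (c l l) (d (c k k) (c l (c l l)))))) (O (c (c l l) (c (c l l) (d (c k k) (c l (d l l))))))) (A (O (c (c l l) (c l (d l (c l l))))) (O (c (c l l) (c l (d l (c l l)))))))) (A (B (O (c (c l l) (c l (c l (d k (d l (c l l))))))) (O (c (c l l) (c l (c l (d k (d l (c l l)))))))) (B (A (O (c (c l l) (c l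 (c l (c l l))))) (O (c (c l l) (c l (c l (c l l)))))) (A (O (c (c l l) (c l (c l l)))) (O (c (c l l) (c l (c l l))))))))))))

theorem s00_r10 : Sound P00 32768 8192 0 32768 :=
  chkOut2_sound P00 KK tr00_r10 32768 8192 0 32768 (by decide +kernel)

end Vale.Agent.P154.D8.K3
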